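import Vale.Agent.P286ET4.Dat

/-!
# The data of the kernels for the elliptic curve
-/

namespace Vale.Agent.P286ET4

open CategoryTheory TensorProduct Vale.Agent.P286ET Vale.Agent.P286ET.Ix

noncomputable section

variable {T T' : TDat Ix} {p q : ℂ}

namespace Dat

variable {E : EllD T p q 1} {E' : EllD T' p q 1} (c : Dat E E')

theorem cs_xy {O : Subalgebra ℂ c.S.Q} {G : c.S.Q} {x y : T.R n} (h : Crv (T.dd n) p q x y)
    (hu : IsUnit (c.j2 x - c.S.i1 x)) (hG : 2 * (c.j2 x - c.S.i1 x) * G = c.S.i1 y + c.j2 y)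
    (x1 : c.S.i1 x ∈ O) (x2 : c.j2 x ∈ O) (y1 : c.S.i1 y ∈ O) (y2 : c.j2 y ∈ O) :
    x ∈ Cs O G c.S.i1 c.j2 ∧ y ∈ Cs O G c.S.i1 c.j2 := by
  refine ⟨⟨x1, x2, mem_of_two O ?_⟩, y1, y2, mem_of_two O ?_⟩
  · rw [← mul_assoc, hG]
    exact add_mem y1 y2
  · rw [aa_y (c.crv1 h) (c.crv2 h) hu hG]
    exact add_mem (add_mem (add_mem (add_mem (pow_mem x1 2) (mul_mem x1 x2)) (pow_mem x2 2))
      (mul_mem (O.algebraMap_mem _) (add_mem x1 x2))) (O.algebraMap_mem _)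

theorem cs_all (k : Ix) (r : T.R k) : T.tau (tn k) r ∈ Cs (c.O k k) (c.g k k) c.S.i1 c.j2 := by
  cases k
  · obtain ⟨h1, h2⟩ := c.cs_xy (O := c.O a a) (crv_n E) c.hu' (c.g_aa ▸ c.hG') (c.mem1 _ _ _)
      (c.mem2 _ _ _) (c.mem1 _ _ _) (c.mem2 _ _ _)
    have : Algebra.adjoin ℂ {E.x, E.y} ≤ (Cs (c.O a a) (c.g a a) c.S.i1 c.j2).comap (T.tau (tn a)) :=
      Algebra.adjoin_le (Set.pair_subset h1 h2)
    exact this (E.gen_a ▸ Algebra.mem_top)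
  · obtain ⟨h1, h2⟩ := c.cs_xy (O := c.O b b) (crv_u E c.hq) c.u_bb c.hG_bb (c.mem1 _ _ _)
      (c.mem2 _ _ _) (c.mem1 _ _ _) (c.mem2 _ _ _)
    have h3 : T.tau (tn b) E.gi ∈ Cs (c.O b b) (c.g b b) c.S.i1 c.j2 := by
      refine Cs_inv (add_mem (add_mem (pow_mem h1 2) (Subalgebra.smul_mem _ h1 p))
        (Subalgebra.algebraMap_mem _ q)) ?_ (c.mem1 _ _ _) (c.mem2 _ _ _)
      have := congrArg (T.tau (tn b)) E.gi_mul
      simp only [map_mul, map_add, map_pow, map_one, map_smul, AlgHom.commutes] at this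
      rw [mul_comm]
      exact this
    have : Algebra.adjoin ℂ {E.u, E.t, E.gi} ≤
        (Cs (c.O b b) (c.g b b) c.S.i1 c.j2).comap (T.tau (tn b)) :=
      Algebra.adjoin_le (Set.insert_subset h1 (Set.pair_subset h2 h3))
    exact this (E.gen_b ▸ Algebra.mem_top)
  · have m1 : ∀ r, c.S.i1 r ∈ c.O n n := fun r => tau_n T r ▸ c.mem1 n n r
    have m2 : ∀ r, c.j2 r ∈ c.O n n := fun r => tau_n T r ▸ c.mem2 n n r
    obtain ⟨h1, h2⟩ := c.cs_xy (O := c.O n n) (G := c.g n n) (crv_n E) c.hu' (c.g_aa ▸ c.hG')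
      (m1 _) (m2 _) (m1 _) (m2 _)
    obtain ⟨z, hz⟩ := (unit_y E).exists_right_inv
    exact gen_n E _ h1 h2 ⟨z, Cs_inv h2 hz (m1 _) (m2 _), hz⟩ _

theorem del {k i j : Ix} (h : k ≤ i) (h' : k ≤ j) (r : T.R k) :
    (c.j2 (T.tau (tn k) r) - c.S.i1 (T.tau (tn k) r)) * c.g i j ∈ c.O i j :=
  Cs_mono (c.O_mono h h') (c.g_sub h h') (c.cs_all k r)

/-- The functions which vanish on the diagonal and kill the pole. -/
def J (i j : Ix) : Ideal (T.R i ⊗[ℂ] T'.R j) where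
  carrier := {ξ | c.κ.mul i j ξ = 0 ∧ c.S.emb i j ξ * c.g i j ∈ c.O i j}
  add_mem' {ξ η} h h' := ⟨by rw [map_add, h.1, h'.1, add_zero], by
    rw [map_add, add_mul]
    exact add_mem h.2 h'.2⟩
  zero_mem' := by simp
  smul_mem' η ξ h := ⟨by rw [smul_eq_mul, map_mul, h.1, mul_zero], by
    rw [smul_eq_mul, map_mul, mul_assoc]
    exact mul_mem ⟨η, rfl⟩ h.2⟩

/-- The left embedding. -/
def lf (i j : Ix) : T.R i →ₐ[ℂ] T.R i ⊗[ℂ] T'.R j := Algebra.TensorProduct.includeLeft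

/-- The right embedding. -/
def rt (i j : Ix) : T.R j →ₐ[ℂ] T.R i ⊗[ℂ] T'.R j :=
  Algebra.TensorProduct.includeRight.comp (c.κ.k j : T.R j →ₐ[ℂ] T'.R j)

theorem emb_lf (i j : Ix) (u : T.R i) : c.S.emb i j (lf i j u) = c.S.i1 (T.tau (tn i) u) := by
  simp [lf, emb_tmul]

theorem emb_rt (i j : Ix) (v : T.R j) : c.S.emb i j (c.rt i j v) = c.j2 (T.tau (tn j) v) := by
  simp [rt, emb_tmul, j2_tau]

theorem mul_lf (i j : Ix) (u : T.R i) : c.κ.mul i j (lf i j u) = T.tau (tn i) u := by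
  simp [lf, mul_tmul]

theorem mul_rt (i j : Ix) (v : T.R j) : c.κ.mul i j (c.rt i j v) = T.tau (tn j) v := by
  simp [rt, mul_tmul, ks]

theorem top {i j : Ix} (Z : Subalgebra ℂ (T.R i ⊗[ℂ] T'.R j)) (h1 : ∀ u, lf i j u ∈ Z)
    (h2 : ∀ v, c.rt i j v ∈ Z) (ξ : T.R i ⊗[ℂ] T'.R j) : ξ ∈ Z := by
  induction ξ using TensorProduct.induction_on with
  | zero => exact zero_mem _
  | tmul u v =>
    obtain ⟨v, rfl⟩ := (c.κ.k j).surjective v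
    have := mul_mem (h1 u) (h2 v)
    simpa [lf, rt] using this
  | add ξ η h h' => exact add_mem h h'

theorem ker_l {i j : Ix} (s : T.R i) (s' : T.R i ⊗[ℂ] T'.R j) (hs : lf i j s * s' - 1 ∈ c.J i j)
    (h : ∀ v, c.rt i j v ∈ Zs (lf i j) (c.J i j) s) (ξ : T.R i ⊗[ℂ] T'.R j)
    (h0 : c.κ.mul i j ξ = 0) : ξ ∈ c.J i j :=
  Zs_ker _ (c.J i j) s (c.κ.mul i j) (fun r hr => inj_all E i (by rw [← c.mul_lf i j, hr, map_zero]))
    (fun _ h => h.1) s' hs (c.top _ (Zs_l _ _ _) h ξ) h0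

theorem ker_r {i j : Ix} (s : T.R j) (s' : T.R i ⊗[ℂ] T'.R j) (hs : c.rt i j s * s' - 1 ∈ c.J i j)
    (h : ∀ u, lf i j u ∈ Zs (c.rt i j) (c.J i j) s) (ξ : T.R i ⊗[ℂ] T'.R j)
    (h0 : c.κ.mul i j ξ = 0) : ξ ∈ c.J i j :=
  Zs_ker _ (c.J i j) s (c.κ.mul i j) (fun r hr => inj_all E j (by rw [← c.mul_rt i j, hr, map_zero]))
    (fun _ h => h.1) s' hs (c.top _ h (Zs_l _ _ _) ξ) h0

theorem ker_ge {i j : Ix} (h : j ≤ i) (ξ : T.R i ⊗[ℂ] T'.R j) (h0 : c.κ.mul i j ξ = 0) :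
    ξ ∈ c.J i j := by
  refine c.ker_l 1 1 (by simp) (fun v => ⟨0, T.tau (homOfLE h) v, ?_, ?_⟩) ξ h0
  · rw [pow_zero, one_mul, map_sub, mul_rt, mul_lf, tau_tau, sub_self]
  · rw [pow_zero, one_mul, map_sub, emb_rt, emb_lf, tau_tau]
    exact c.del h le_rfl v

theorem ker_le {i j : Ix} (h : i ≤ j) (ξ : T.R i ⊗[ℂ] T'.R j) (h0 : c.κ.mul i j ξ = 0) :
    ξ ∈ c.J i j := by
  refine c.ker_r 1 1 (by simp) (fun v => ⟨0, T.tau (homOfLE h) v, ?_, ?_⟩) ξ h0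
  · rw [pow_zero, one_mul, map_sub, mul_rt, mul_lf, tau_tau, sub_self]
  · rw [pow_zero, one_mul, map_sub, emb_rt, emb_lf, tau_tau, ← neg_sub, neg_mul]
    exact neg_mem (c.del le_rfl h v)

theorem ker_aux {A B : Type} [CommRing A] [Algebra ℂ A] [CommRing B] [Algebra ℂ B]
    (l : B →ₐ[ℂ] A) (m : T.R a →ₐ[ℂ] A) (J : Ideal A) (u t : B) (hq : q ≠ 0)
    (h1 : l u * m E.x - algebraMap ℂ A q ∈ J)
    (h2 : l u ^ 2 * m E.y + algebraMap ℂ A q * l t ∈ J) :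
    l u * (algebraMap ℂ A q⁻¹ * m E.x) - 1 ∈ J ∧ ∀ v, m v ∈ Zs l J u := by
  refine ⟨?_, fun v => ?_⟩
  · have e : algebraMap ℂ A q⁻¹ * algebraMap ℂ A q = 1 := by
      rw [← map_mul, inv_mul_cancel₀ hq, map_one]
    convert J.mul_mem_left (algebraMap ℂ A q⁻¹) h1 using 1
    linear_combination e
  · have : Algebra.adjoin ℂ {E.x, E.y} ≤ (Zs l J u).comap m :=
      Algebra.adjoin_le (Set.pair_subset ⟨1, algebraMap ℂ B q, by simpa using h1⟩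
        ⟨2, - (algebraMap ℂ B q * t), by simpa using h2⟩)
    exact this (E.gen_a ▸ Algebra.mem_top)

theorem ker_ab (ξ : T.R a ⊗[ℂ] T'.R b) (h0 : c.κ.mul a b ξ = 0) : ξ ∈ c.J a b := by
  have x1 : c.S.i1 (xn E) ∈ c.O a b := c.mem1 _ _ _
  have y1 : c.S.i1 (yn E) ∈ c.O a b := c.mem1 _ _ _
  have u2 : c.j2 (un E) ∈ c.O a b := c.mem2 _ _ _
  have v2 : c.j2 (vn E) ∈ c.O a b := c.mem2 _ _ _
  obtain ⟨h1, h2⟩ := ker_aux (E := E) (c.rt a b) (lf a b) (c.J a b) E.u E.t c.hq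
    ⟨by simpa only [map_sub, map_mul, mul_rt, mul_lf, AlgHom.commutes, sub_eq_zero] using E.tau_u, by
      simp only [map_sub, map_mul, emb_rt, emb_lf, AlgHom.commutes]
      refine mem_of_two _ ?_
      convert sub_mem (mul_mem x1 v2) (mul_mem y1 u2) using 1
      rw [← c.hG_ab, xn, un]
      ring⟩
    ⟨by
      simp only [map_add, map_mul, map_pow, mul_rt, mul_lf, AlgHom.commutes]
      have := yu E
      rw [yn, un, vn] at this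
      linear_combination this, by
      simp only [map_add, map_mul, map_pow, emb_rt, emb_lf, AlgHom.commutes]
      refine mem_of_two _ ?_
      have := ab_t (c.crv1 (crv_n E)) (c.crv2 (crv_u E c.hq)) c.u_ab c.hG_ab
      exact this ▸ sub_mem (mul_mem (mul_mem y1 u2) v2) (mul_mem (mul_mem x1 u2) (add_mem
        (add_mem (Subalgebra.algebraMap_mem _ _) (mul_mem x1 u2))
        (mul_mem (Subalgebra.algebraMap_mem _ _) u2)))⟩
  exact c.ker_r _ _ h1 h2 ξ h0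

theorem ker_ba (ξ : T.R b ⊗[ℂ] T'.R a) (h0 : c.κ.mul b a ξ = 0) : ξ ∈ c.J b a := by
  have x1 : c.S.i1 (un E) ∈ c.O b a := c.mem1 _ _ _
  have y1 : c.S.i1 (vn E) ∈ c.O b a := c.mem1 _ _ _
  have u2 : c.j2 (xn E) ∈ c.O b a := c.mem2 _ _ _
  have v2 : c.j2 (yn E) ∈ c.O b a := c.mem2 _ _ _
  obtain ⟨h1, h2⟩ := ker_aux (E := E) (lf b a) (c.rt b a) (c.J b a) E.u E.t c.hq
    ⟨by simpa only [map_sub, map_mul, mul_rt, mul_lf, AlgHom.commutes, sub_eq_zero] using E.tau_u, by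
      simp only [map_sub, map_mul, emb_rt, emb_lf, AlgHom.commutes]
      refine mem_of_two _ ?_
      convert sub_mem (mul_mem x1 v2) (mul_mem y1 u2) using 1
      rw [← c.hG_ba, xn, un]
      ring⟩
    ⟨by
      simp only [map_add, map_mul, map_pow, mul_rt, mul_lf, AlgHom.commutes]
      have := yu E
      rw [yn, un, vn] at this
      linear_combination this, by
      simp only [map_add, map_mul, map_pow, emb_rt, emb_lf, AlgHom.commutes]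
      refine mem_of_two _ ?_
      have := ab_y (c.crv1 (crv_u E c.hq)) (c.crv2 (crv_n E)) c.u_ba c.hG_ba
      exact this ▸ sub_mem (mul_mem (mul_mem x1 u2) (add_mem
        (add_mem (mul_mem x1 u2) (Subalgebra.algebraMap_mem _ _))
        (mul_mem (Subalgebra.algebraMap_mem _ _) x1))) (mul_mem (mul_mem x1 y1) v2)⟩
  exact c.ker_l _ _ h1 h2 ξ h0

theorem IG (i j : Ix) (ξ : T.R i ⊗[ℂ] T'.R j) (h0 : c.κ.mul i j ξ = 0) :
    ∃ ζ, c.S.emb i j ζ = c.S.emb i j ξ * c.g i j ∧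
      c.κ.mul i j ζ = c.κ.mul i j (LinearMap.lTensor _ (T'.dd j).toLinearMap ξ) := by
  have h : ξ ∈ c.J i j := by
    cases i <;> cases j
    exacts [c.ker_ge le_rfl ξ h0, c.ker_ab ξ h0, c.ker_le (le_n _) ξ h0, c.ker_ba ξ h0,
      c.ker_ge le_rfl ξ h0, c.ker_le (le_n _) ξ h0, c.ker_ge (le_n _) ξ h0,
      c.ker_ge (le_n _) ξ h0, c.ker_ge le_rfl ξ h0]
  obtain ⟨ζ, hζ⟩ := h.2
  exact ⟨ζ, hζ, res (h0 ▸ c.rs_emb i j ξ) (c.rs_emb i j ζ) (c.d2_emb i j ξ ▸ c.rs_emb i j _) hζ⟩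

/-- The chart with the same function `h`. -/
def bs : Ix → Ix
  | b => b
  | _ => a

theorem bs_le (i : Ix) : bs i ≤ i := by
  cases i <;> first | exact le_rfl | exact le_n _

theorem g_bs (i j : Ix) : c.g i j = c.g (bs i) (bs j) := by
  cases i <;> cases j <;> rfl

theorem red {P : Ix → Ix → Prop} (h : ∀ i j, P (bs i) (bs j) → P i j) (aa : P a a) (ab : P a b)
    (ba : P b a) (bb : P b b) (i j : Ix) : P i j :=
  h i j (by cases i <;> cases j <;> assumption)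

theorem gen {i j : Ix} (ha : a = i ∨ a = j) (hb : b = i ∨ b = j) (r : T.R n) :
    ∃ ξ, c.κ.mul i j ξ = r := by
  have h : ∀ k, k = i ∨ k = j → ∀ s : T.R k, T.tau (tn k) s ∈ (c.κ.mul i j).range := by
    rintro k (rfl | rfl) s
    · exact ⟨_, c.mul_lf _ _ s⟩
    · exact ⟨_, c.mul_rt _ _ s⟩
  exact gen_ab E c.hq _ (h a ha) (h b hb) r

theorem one_xy (hd : p ^ 2 - 4 * q ≠ 0) {O : Subalgebra ℂ c.S.Q} {x y : T.R n}
    (h : Crv (T.dd n) p q x y) (x1 : c.S.i1 x ∈ O) (x2 : c.j2 x ∈ O) (y1 : c.S.i1 y ∈ O)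
    (y2 : c.j2 y ∈ O) : ∃ z ∈ O, c.Rs z 0 ∧ c.Rs (c.S.d2 z) 1 := by
  obtain ⟨α, hα, β, hβ, e⟩ := bez h c.hq hd (O.comap c.S.i1) x1 y1
  refine ⟨c.S.i1 α * (c.j2 x - c.S.i1 x) + c.S.i1 β * (c.j2 y - c.S.i1 y),
    add_mem (mul_mem hα (sub_mem x2 x1)) (mul_mem hβ (sub_mem y2 y1)), ?_, ?_⟩
  · simpa using ((c.rs1 α).mul ((c.rs2 x).sub (c.rs1 x))).add
      ((c.rs1 β).mul ((c.rs2 y).sub (c.rs1 y)))
  · have := ((c.rs1 α).mul (c.rs2 y)).add ((c.rs1 β).mul (c.rs2 (T.dd n y)))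
    rw [e] at this
    simpa [c.S.d21, d2_j2, h.dx] using this

theorem one_ab {i j : Ix} (ha : a = i ∨ a = j) (hb : b = i ∨ b = j) {x u : T.R n}
    (e : x * u = algebraMap ℂ _ q) (hu : IsUnit (x * T.dd n u)) (x1 : c.S.i1 x ∈ c.O i j)
    (u2 : c.j2 u ∈ c.O i j) : ∃ z ∈ c.O i j, c.Rs z 0 ∧ c.Rs (c.S.d2 z) 1 := by
  obtain ⟨s, hs⟩ := hu.exists_left_inv
  obtain ⟨ξ, rfl⟩ := c.gen ha hb s
  have h1 := c.rs_emb i j ξ
  obtain ⟨r, hr⟩ := h1.d2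
  have h2 : c.Rs (c.S.i1 x * c.j2 u - algebraMap ℂ _ q) 0 := by
    simpa [e] using ((c.rs1 x).mul (c.rs2 u)).sub (c.rs1 (algebraMap ℂ _ q))
  refine ⟨_, mul_mem ⟨ξ, rfl⟩ (sub_mem (mul_mem x1 u2) (Subalgebra.algebraMap_mem _ q)),
    by simpa using h1.mul h2, ?_⟩
  have := (h1.mul ((c.rs1 x).mul (c.rs2 (T.dd n u)))).add (h2.mul hr)
  rw [hs, zero_mul, add_zero] at this
  simpa [c.S.d21, d2_j2] using this

theorem one (hd : p ^ 2 - 4 * q ≠ 0) (i j : Ix) : ∃ ξ ζ : T.R i ⊗[ℂ] T'.R j, c.κ.mul i j ξ = 0 ∧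
    c.S.emb i j ζ = c.S.emb i j ξ * c.g i j ∧ c.κ.mul i j ζ = 1 := by
  obtain ⟨_, ⟨ξ, rfl⟩, h0, h1⟩ := red (P := fun i j => ∃ z ∈ c.O i j, c.Rs z 0 ∧ c.Rs (c.S.d2 z) 1)
    (fun i j ⟨z, hz, h⟩ => ⟨z, c.O_mono (bs_le i) (bs_le j) hz, h⟩)
    (c.one_xy hd (crv_n E) (c.mem1 _ _ _) (c.mem2 _ _ _) (c.mem1 _ _ _) (c.mem2 _ _ _))
    (c.one_ab (.inl rfl) (.inr rfl) ((mul_comm _ _).trans (ux E))
      ((crv_u E c.hq).dx ▸ (unit_x E).mul (unit_v E c.hq)) (c.mem1 _ _ _) (c.mem2 _ _ _))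
    (c.one_ab (.inr rfl) (.inl rfl) (ux E)
      ((crv_n E).dx ▸ (unit_u E c.hq).mul (unit_y E)) (c.mem1 _ _ _) (c.mem2 _ _ _))
    (c.one_xy hd (crv_u E c.hq) (c.mem1 _ _ _) (c.mem2 _ _ _) (c.mem1 _ _ _) (c.mem2 _ _ _)) i j
  have e0 := (c.rs_emb i j ξ).uniq h0 rfl
  obtain ⟨ζ, h2, h3⟩ := c.IG i j ξ e0
  exact ⟨ξ, ζ, e0, h2, h3.trans ((c.rs_emb i j _).uniq h1 (c.d2_emb i j ξ).symm)⟩

theorem dG (i j : Ix) : c.S.d1 (c.g i j) + c.S.d2 (c.g i j) ∈ c.O i j := by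
  have h2 := aa_GG (c.crv1 (crv_n E)) (c.crv2 (crv_n E)) (c.S.d21 _) (c.S.d21 _) c.hu' c.hG'
  have h1 := aa_GG (G := - c.G) (c.crv2 (crv_n E)) (c.crv1 (crv_n E)) (c.d1_j2 _) (c.d1_j2 _)
    (neg_sub (c.j2 (xn E)) _ ▸ c.hu'.neg) (by linear_combination c.hG')
  have h : ∀ k, ∃ s : T.R k, T.tau (tn k) s = xn E + 4 * T.dd n (E.h k) := by
    intro k
    cases k
    · exact ⟨E.x, by simp [EllD.h, xn]⟩
    · exact ⟨E.u, by rw [EllD.h, d_hb E c.hq, add_sub_cancel]; rfl⟩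
    · exact ⟨xn E, by simp [EllD.h, tau_n]⟩
  obtain ⟨s, hs⟩ := h i
  obtain ⟨s', hs'⟩ := h j
  refine mem_of_four _ ?_
  convert sub_mem (c.mem2 i j s') (c.mem1 i j s) using 1
  rw [map_neg] at h1
  simp only [hs, hs', g_def, map_add, map_sub, map_mul, map_ofNat, c.S.d11, c.S.d21, d1_j2, d2_j2]
  linear_combination h2 - h1

theorem GG_xy {O : Subalgebra ℂ c.S.Q} {G : c.S.Q} {x y : T.R n} (h : Crv (T.dd n) p q x y)
    (hu : IsUnit (c.j2 x - c.S.i1 x)) (hG : 2 * (c.j2 x - c.S.i1 x) * G = c.S.i1 y + c.j2 y)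
    (x1 : c.S.i1 x ∈ O) (x2 : c.j2 x ∈ O) : ∃ β ∈ O, c.S.d2 G + G * G - β * G ∈ O := by
  refine ⟨0, zero_mem _, mem_of_four _ ?_⟩
  rw [zero_mul, sub_zero, aa_GG (c.crv1 h) (c.crv2 h) (c.S.d21 _) (c.S.d21 _) hu hG]
  exact add_mem (add_mem (mul_mem (ofNat_mem _ 2) x2) x1) (O.algebraMap_mem _)

theorem GG_ab {O : Subalgebra ℂ c.S.Q} {G : c.S.Q} {x y u t : T.R n} (h : Crv (T.dd n) p q x y)
    (h' : Crv (T.dd n) p q u t) (hu : IsUnit (c.S.i1 x * c.j2 u - algebraMap ℂ _ q))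
    (hG : 2 * (c.S.i1 x * c.j2 u - algebraMap ℂ _ q) * G = c.S.i1 x * c.j2 t - c.S.i1 y * c.j2 u)
    (x1 : c.S.i1 x ∈ O) (y1 : c.S.i1 y ∈ O) (u2 : c.j2 u ∈ O) (t2 : c.j2 t ∈ O) :
    ∃ β ∈ O, c.S.d2 G + G * G - β * G ∈ O := by
  have k := ab_GG (c.crv1 h) (c.crv2 h') (c.S.d21 _) (c.S.d21 _) hu hG
  have e : algebraMap ℂ c.S.Q q⁻¹ * algebraMap ℂ c.S.Q q = 1 := by
    rw [← map_mul, inv_mul_cancel₀ c.hq, map_one]
  have hq := O.algebraMap_mem q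
  refine ⟨_, neg_mem (mul_mem (O.algebraMap_mem q⁻¹) (mul_mem y1 u2)),
    mem_of_four _ (mem_of_mul _ c.hq ?_)⟩
  convert add_mem (mul_mem hq x1) (mul_mem (ofNat_mem _ 2) (sub_mem (mul_mem y1 t2) (mul_mem x1
    (add_mem (add_mem hq (mul_mem x1 u2)) (mul_mem (O.algebraMap_mem p) u2))))) using 1
  linear_combination k + 4 * (c.S.i1 y * c.j2 u) * G * e

theorem GG (i j : Ix) : ∃ α β, c.S.d2 (c.g i j) + c.g i j * c.g i j =
    c.S.emb i j α + c.S.emb i j β * c.g i j := by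
  obtain ⟨_, ⟨β, rfl⟩, α, h⟩ := red
    (P := fun i j => ∃ β ∈ c.O i j, c.S.d2 (c.g i j) + c.g i j * c.g i j - β * c.g i j ∈ c.O i j)
    (fun i j ⟨z, hz, h⟩ => ⟨z, c.O_mono (bs_le i) (bs_le j) hz,
      c.g_bs i j ▸ c.O_mono (bs_le i) (bs_le j) h⟩)
    (c.GG_xy (crv_n E) c.hu' (c.g_aa ▸ c.hG') (c.mem1 _ _ _) (c.mem2 _ _ _))
    (c.GG_ab (crv_n E) (crv_u E c.hq) c.u_ab c.hG_ab (c.mem1 _ _ _) (c.mem1 _ _ _) (c.mem2 _ _ _)
      (c.mem2 _ _ _))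
    (c.GG_ab (crv_u E c.hq) (crv_n E) c.u_ba c.hG_ba (c.mem1 _ _ _) (c.mem1 _ _ _) (c.mem2 _ _ _)
      (c.mem2 _ _ _))
    (c.GG_xy (crv_u E c.hq) c.u_bb c.hG_bb (c.mem1 _ _ _) (c.mem2 _ _ _)) i j
  exact ⟨α, β, (eq_sub_iff_add_eq.1 h).symm⟩

theorem w_G : c.S.w c.G = - c.G := by
  have h := congrArg c.S.w c.hG
  simp only [map_mul, map_sub, map_add, map_ofNat, c.S.w_1, c.S.w_2, w_x, w_y, map_neg] at h
  refine (unit_two.mul c.hu).mul_left_cancel ?_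
  linear_combination h + c.hG

end Dat

theorem ell (hT : TRC) (hK : KAP) : ELL := by
  intro T T' p q E E' hq hd
  obtain ⟨tr⟩ := hT T p q 1 E hq hd
  have hκ := hK T T' p q 1 1 E E' hq one_ne_zero
  rw [div_one] at hκ
  obtain ⟨κ, kx, ky, ku, kt⟩ := hκ
  obtain ⟨S, hu⟩ := exists_sq T T' (xn E) (xn E') (tf_n E') (w_x E) (w_x E')
  obtain ⟨z, hz⟩ := (unit_two.mul hu).exists_right_inv
  let c : Dat E E' := ⟨κ, kx, ky, ku, kt, S, hu, z * (S.i1 (yn E) + S.i2 (yn E')), by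
    rw [← mul_assoc, hz, one_mul], hq⟩
  exact ⟨{ κ := c.κ, inj := inj_all E, gen := c.gen (.inl rfl) (.inr rfl), h := E.h, w_h := w_h E
           tr := (sub_zero E.hb).symm ▸ tr
           S := c.S, G := c.G, w_G := c.w_G, IG := c.IG, one := c.one hd
           dG := fun i j => (c.dG i j).imp fun _ h => h.symm
           GG := c.GG }, rfl, c.kh⟩

end

end Vale.Agent.P286ET4
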