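import Vale.Agent.P286ET4.Crv

/-!
# Identities for the function with a simple pole along the diagonal
-/

namespace Vale.Agent.P286ET4

noncomputable section

variable {Q : Type} [CommRing Q] [Algebra ℂ Q] {p q : ℂ} {d : Derivation ℂ Q Q} {d' d'' : Q → Q}
  {x y u t G : Q}

theorem aa_y (h1 : Crv d' p q x y) (h2 : Crv d'' p q u t) (hu : IsUnit (u - x))
    (hG : 2 * (u - x) * G = y + t) :
    2 * ((t - y) * G) =
      x ^ 2 + x * u + u ^ 2 + algebraMap ℂ Q p * (x + u) + algebraMap ℂ Q q := by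
  refine hu.mul_left_cancel ?_
  linear_combination (t - y) * hG + h2.eqn - h1.eqn

theorem aa_GG (h1 : Crv d' p q x y) (h2 : Crv d p q u t) (dx : d x = 0) (dy : d y = 0)
    (hu : IsUnit (u - x)) (hG : 2 * (u - x) * G = y + t) :
    4 * (d G + G * G) = 2 * u + x + algebraMap ℂ Q p := by
  have h := congrArg d hG
  simp only [Derivation.leibniz, smul_eq_mul, der_two, map_add, map_sub, dx, dy, h2.dx] at h
  refine (hu.pow 2).mul_left_cancel ?_
  linear_combination (2 * (u - x)) * h + (u - x) * h2.dy +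
    (2 * (u - x) * G + y - t) * hG + h1.eqn - h2.eqn

theorem ab_t (h1 : Crv d' p q x y) (h2 : Crv d'' p q u t) (hu : IsUnit (x * u - algebraMap ℂ Q q))
    (hG : 2 * (x * u - algebraMap ℂ Q q) * G = x * t - y * u) :
    2 * ((u ^ 2 * y + algebraMap ℂ Q q * t) * G) =
      y * u * t - x * u * (algebraMap ℂ Q q + x * u + algebraMap ℂ Q p * u) := by
  refine hu.mul_left_cancel ?_
  linear_combination (u ^ 2 * y + algebraMap ℂ Q q * t) * hG + algebraMap ℂ Q q * x * h2.eqn -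
    u ^ 3 * h1.eqn

theorem ab_y (h1 : Crv d' p q x y) (h2 : Crv d'' p q u t) (hu : IsUnit (x * u - algebraMap ℂ Q q))
    (hG : 2 * (x * u - algebraMap ℂ Q q) * G = x * t - y * u) :
    2 * ((x ^ 2 * t + algebraMap ℂ Q q * y) * G) =
      x * u * (x * u + algebraMap ℂ Q q + algebraMap ℂ Q p * x) - x * y * t := by
  refine hu.mul_left_cancel ?_
  linear_combination (x ^ 2 * t + algebraMap ℂ Q q * y) * hG + x ^ 3 * h2.eqn -
    algebraMap ℂ Q q * u * h1.eqn

theorem ab_GG (h1 : Crv d' p q x y) (h2 : Crv d p q u t) (dx : d x = 0) (dy : d y = 0)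
    (hu : IsUnit (x * u - algebraMap ℂ Q q))
    (hG : 2 * (x * u - algebraMap ℂ Q q) * G = x * t - y * u) :
    4 * algebraMap ℂ Q q * (d G + G * G) = algebraMap ℂ Q q * x +
      2 * (y * t - x * (algebraMap ℂ Q q + x * u + algebraMap ℂ Q p * u)) -
      4 * (y * u) * G := by
  have h := congrArg d hG
  simp only [Derivation.leibniz, smul_eq_mul, der_two, map_sub, dx, dy, h2.dx,
    Derivation.map_algebraMap] at h
  have k : 4 * (x * u - algebraMap ℂ Q q) * (d G + G * G) =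
      2 * x * (u ^ 2 + algebraMap ℂ Q p * u + algebraMap ℂ Q q) - 2 * y * t +
        x * (x * u - algebraMap ℂ Q q) := by
    refine hu.mul_left_cancel ?_
    linear_combination (2 * (x * u - algebraMap ℂ Q q)) * h +
      x * (x * u - algebraMap ℂ Q q) * h2.dy +
      (2 * (x * u - algebraMap ℂ Q q) * G - x * t - y * u) * hG + u ^ 2 * h1.eqn - x ^ 2 * h2.eqn
  refine hu.mul_left_cancel ?_
  linear_combination algebraMap ℂ Q q * k + 2 * (y * u) * hG - 2 * u ^ 2 * h1.eqn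

theorem bez (h : Crv d' p q x y) (hq : q ≠ 0) (hd : p ^ 2 - 4 * q ≠ 0) (C : Subalgebra ℂ Q)
    (hx : x ∈ C) (hy : y ∈ C) : ∃ α ∈ C, ∃ β ∈ C, α * y + β * d' y = 1 := by
  have hc : -9 * q ^ 2 * (p ^ 2 - 4 * q) ≠ 0 := by simp [hq, hd]
  obtain ⟨c, hc⟩ : ∃ c, c * (-9 * q ^ 2 * (p ^ 2 - 4 * q)) = 1 := ⟨_, inv_mul_cancel₀ hc⟩
  have h1 := congrArg (algebraMap ℂ Q) hc
  simp only [map_mul, map_neg, map_pow, map_sub, map_ofNat, map_one] at h1
  have hP := C.algebraMap_mem p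
  have hQ := C.algebraMap_mem q
  have hC := C.algebraMap_mem c
  have e1 := h.eqn
  have e2 := h.dy
  generalize algebraMap ℂ Q p = P at *
  generalize algebraMap ℂ Q q = R at *
  generalize algebraMap ℂ Q c = K at *
  have h2 : (2 : Q) ∈ C := ofNat_mem _ 2
  have h3 : (3 : Q) ∈ C := ofNat_mem _ 3
  have ha : 2 * (3 * R - P ^ 2) ∈ C := mul_mem h2 (sub_mem (mul_mem h3 hQ) (pow_mem hP 2))
  have hM : 3 * (2 * (3 * R - P ^ 2)) * x + 3 * (P * R) + 2 * P * (2 * (3 * R - P ^ 2)) ∈ C :=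
    add_mem (add_mem (mul_mem (mul_mem h3 ha) hx) (mul_mem h3 (mul_mem hP hQ)))
      (mul_mem (mul_mem h2 hP) ha)
  refine ⟨_, mul_mem hC (neg_mem (mul_mem (mul_mem (mul_mem h3 h3) hy) hM)), _,
    mul_mem hC (mul_mem h2 (add_mem (pow_mem ha 2) (mul_mem (add_mem (mul_mem h3 hx) hP) hM))), ?_⟩
  linear_combination h1 - K * 9 * (3 * (2 * (3 * R - P ^ 2)) * x + 3 * (P * R) +
    2 * P * (2 * (3 * R - P ^ 2))) * e1 + K * ((2 * (3 * R - P ^ 2)) ^ 2 + (3 * x + P) *
    (3 * (2 * (3 * R - P ^ 2)) * x + 3 * (P * R) + 2 * P * (2 * (3 * R - P ^ 2)))) * e2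

theorem mem_of_mul (O : Subalgebra ℂ Q) {c : ℂ} (hc : c ≠ 0) {z : Q}
    (h : algebraMap ℂ Q c * z ∈ O) : z ∈ O := by
  have := O.mul_mem (O.algebraMap_mem c⁻¹) h
  rwa [← mul_assoc, ← map_mul, inv_mul_cancel₀ hc, map_one, one_mul] at this

theorem mem_of_two (O : Subalgebra ℂ Q) {z : Q} (h : 2 * z ∈ O) : z ∈ O :=
  mem_of_mul O (c := 2) two_ne_zero (by rwa [map_ofNat])

theorem mem_of_four (O : Subalgebra ℂ Q) {z : Q} (h : 4 * z ∈ O) : z ∈ O :=
  mem_of_mul O (c := 4) (by norm_num) (by rwa [map_ofNat])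

section CS

variable {R : Type} [CommRing R] [Algebra ℂ R]

/-- The functions `r` such that `(r(2) - r(1)) G` is regular. -/
def Cs (O : Subalgebra ℂ Q) (G : Q) (f g : R →ₐ[ℂ] Q) : Subalgebra ℂ R where
  carrier := {r | f r ∈ O ∧ g r ∈ O ∧ (g r - f r) * G ∈ O}
  mul_mem' {r s} hr hs := ⟨map_mul f r s ▸ mul_mem hr.1 hs.1, map_mul g r s ▸ mul_mem hr.2.1 hs.2.1,
    by
      have := add_mem (mul_mem hr.2.1 hs.2.2) (mul_mem hs.1 hr.2.2)
      rw [map_mul, map_mul]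
      convert this using 1
      ring⟩
  add_mem' {r s} hr hs := ⟨map_add f r s ▸ add_mem hr.1 hs.1, map_add g r s ▸ add_mem hr.2.1 hs.2.1,
    by
      have := add_mem hr.2.2 hs.2.2
      rw [map_add, map_add]
      convert this using 1
      ring⟩
  algebraMap_mem' c := by simp

theorem Cs_inv {O : Subalgebra ℂ Q} {f g : R →ₐ[ℂ] Q} {r s : R} (hr : r ∈ Cs O G f g)
    (h : r * s = 1) (h1 : f s ∈ O) (h2 : g s ∈ O) : s ∈ Cs O G f g := by
  refine ⟨h1, h2, ?_⟩
  have := neg_mem (mul_mem (mul_mem h1 h2) hr.2.2)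
  have e1 : f r * f s = 1 := by rw [← map_mul, h, map_one]
  have e2 : g r * g s = 1 := by rw [← map_mul, h, map_one]
  convert this using 1
  linear_combination G * f s * e2 - G * g s * e1

theorem Cs_mono {O O' : Subalgebra ℂ Q} {f g : R →ₐ[ℂ] Q} {G' : Q} (h : O ≤ O') (hG : G' - G ∈ O')
    {r : R} (hr : r ∈ Cs O G f g) : (g r - f r) * G' ∈ O' := by
  have := add_mem (h hr.2.2) (mul_mem (sub_mem (h hr.2.1) (h hr.1)) hG)
  convert this using 1
  ring

end CS

section GEN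

variable {A B R : Type} [CommRing A] [Algebra ℂ A] [CommRing B] [Algebra ℂ B] [CommRing R]
  [Algebra ℂ R] (l : B →ₐ[ℂ] A) (J : Ideal A) (s : B)

/-- The elements which modulo `J` are fractions of elements of `B`. -/
def Zs : Subalgebra ℂ A where
  carrier := {ξ | ∃ (N : ℕ) (r : B), l s ^ N * ξ - l r ∈ J}
  mul_mem' := by
    rintro ξ η ⟨N, r, h⟩ ⟨N', r', h'⟩
    refine ⟨N + N', r * r', ?_⟩
    have := add_mem (J.mul_mem_left (l s ^ N' * η) h) (J.mul_mem_left (l r) h')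
    rw [map_mul]
    convert this using 1
    ring
  add_mem' := by
    rintro ξ η ⟨N, r, h⟩ ⟨N', r', h'⟩
    refine ⟨N + N', s ^ N' * r + s ^ N * r', ?_⟩
    have := add_mem (J.mul_mem_left (l s ^ N') h) (J.mul_mem_left (l s ^ N) h')
    simp only [map_mul, map_add, map_pow]
    convert this using 1
    ring
  algebraMap_mem' c := ⟨0, algebraMap ℂ B c, by simp⟩

theorem Zs_l (r : B) : l r ∈ Zs l J s := ⟨0, r, by simp⟩

theorem Zs_ker (μ : A →ₐ[ℂ] R) (hinj : ∀ r, μ (l r) = 0 → r = 0) (hJ : ∀ ξ ∈ J, μ ξ = 0) (s' : A)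
    (hs : l s * s' - 1 ∈ J) {ξ : A} (hξ : ξ ∈ Zs l J s) (h0 : μ ξ = 0) : ξ ∈ J := by
  obtain ⟨N, r, h⟩ := hξ
  have h1 := hJ _ h
  rw [map_sub, map_mul, h0, mul_zero, zero_sub, neg_eq_zero] at h1
  rw [hinj r h1, map_zero, sub_zero] at h
  clear h1
  induction N with
  | zero => simpa using h
  | succ N ih =>
    refine ih ?_
    have := sub_mem (J.mul_mem_left s' h) (J.mul_mem_left (l s ^ N * ξ) hs)
    convert this using 1
    ring

end GEN

end

end Vale.Agent.P286ET4
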