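import Vale.Agent.P286ET4.Sq

/-!
# The functions on the charts of the elliptic curve
-/

namespace Vale.Agent.P286ET4

open CategoryTheory TensorProduct Vale.Agent.P286ET Vale.Agent.P286ET.Ix Polynomial

noncomputable section

/-- A point of the curve with values in `R`, with the invariant vector field. -/
structure Crv {R : Type} [CommRing R] [Algebra ℂ R] (d : R → R) (p q : ℂ) (x y : R) :
    Prop where
  eqn : y ^ 2 = x * (x ^ 2 + algebraMap ℂ R p * x + algebraMap ℂ R q)
  dx : d x = y
  dy : 2 * d y = 3 * x ^ 2 + 2 * algebraMap ℂ R p * x + algebraMap ℂ R q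

theorem Crv.map {R Q : Type} [CommRing R] [Algebra ℂ R] [CommRing Q] [Algebra ℂ Q] {d : R → R}
    {D : Q → Q} {p q : ℂ} {x y : R} (h : Crv d p q x y) (f : R →ₐ[ℂ] Q)
    (hf : ∀ r, D (f r) = f (d r)) : Crv D p q (f x) (f y) where
  eqn := by simpa using congrArg f h.eqn
  dx := by rw [hf, h.dx]
  dy := by
    have := congrArg f h.dy
    simp only [map_mul, map_add, map_pow, map_ofNat, AlgHom.commutes] at this
    rw [hf, this]

theorem unit_c {R : Type} [CommRing R] [Algebra ℂ R] {c : ℂ} (hc : c ≠ 0) :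
    IsUnit (algebraMap ℂ R c) := (Ne.isUnit hc).map _

theorem unit_two {R : Type} [CommRing R] [Algebra ℂ R] : IsUnit (2 : R) := by
  simpa only [map_ofNat] using unit_c (R := R) (c := 2) two_ne_zero

theorem der_two {R : Type} [CommRing R] [Algebra ℂ R] (d : Derivation ℂ R R) : d 2 = 0 := by
  simpa only [map_ofNat] using d.map_algebraMap 2

theorem tau_n (T : TDat Ix) (r : T.R n) : T.tau (tn n) r = r := T.tau_id n r

variable {T : TDat Ix} {p q : ℂ} (E : EllD T p q 1)

theorem crv_a : Crv (T.dd a) p q E.x E.y where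
  eqn := by simpa [Algebra.smul_def] using E.eqn
  dx := by simpa using E.dd_x
  dy := by simpa [Algebra.smul_def, map_ofNat] using E.dd_y

theorem span_a (r : T.R a) : ∃ F G : ℂ[X], r = aeval E.x F + aeval E.x G * E.y := by
  have hr : r ∈ Algebra.adjoin ℂ {E.x, E.y} := E.gen_a ▸ Algebra.mem_top
  induction hr using Algebra.adjoin_induction with
  | mem z hz =>
    rcases hz with rfl | rfl
    · exact ⟨X, 0, by simp⟩
    · exact ⟨0, 1, by simp⟩
  | algebraMap c => exact ⟨C c, 0, by simp⟩
  | add u v _ _ hu hv =>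
    obtain ⟨F, G, rfl⟩ := hu
    obtain ⟨F', G', rfl⟩ := hv
    exact ⟨F + F', G + G', by simp only [map_add]; ring⟩
  | mul u v _ _ hu hv =>
    obtain ⟨F, G, rfl⟩ := hu
    obtain ⟨F', G', rfl⟩ := hv
    refine ⟨F * F' + G * G' * (X * (X ^ 2 + C p * X + C q)), F * G' + G * F', ?_⟩
    simp only [map_add, map_mul, map_pow, aeval_X, aeval_C]
    linear_combination (aeval E.x G * aeval E.x G') * (crv_a E).eqn

theorem tf_a : TF E.x := by
  intro F hF r hr
  obtain ⟨G, G', rfl⟩ := span_a E r
  obtain ⟨h1, h2⟩ := E.free (F * G) (F * G') (by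
    simp only [map_mul]
    linear_combination hr)
  rw [(mul_eq_zero.1 h1).resolve_left hF, (mul_eq_zero.1 h2).resolve_left hF]
  simp

theorem y_nzd (r : T.R a) (h : E.y * r = 0) : r = 0 := by
  refine tf_a E (X * (X ^ 2 + C p * X + C q)) (Monic.ne_zero (by monicity!)) r ?_
  simp only [map_add, map_mul, map_pow, aeval_X, aeval_C]
  linear_combination E.y * h - r * (crv_a E).eqn

include E in
theorem inj_a : Function.Injective (T.tau (tn a)) := by
  refine (injective_iff_map_eq_zero _).2 fun r hr => ?_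
  obtain ⟨k, hk⟩ := E.away_a.ker r hr
  induction k with
  | zero => simpa using hk
  | succ k ih => exact ih (y_nzd E _ (by linear_combination hk))

include E in
theorem inj_all (i : Ix) : Function.Injective (T.tau (tn i)) := by
  cases i
  · exact inj_a E
  · exact E.inj_b
  · intro r s h
    rwa [tau_n, tau_n] at h

/-- The function `x`. -/
def xn : T.R n := T.tau (tn a) E.x
/-- The function `y`. -/
def yn : T.R n := T.tau (tn a) E.y
/-- The function `u`. -/
def un : T.R n := T.tau (tn b) E.u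
/-- The function `t`. -/
def vn : T.R n := T.tau (tn b) E.t

theorem tf_n : TF (xn E) := by
  intro F hF r hr
  obtain ⟨k, s, hs⟩ := E.away_a.surj r
  have h1 : T.tau (tn a) (aeval E.x F * s) = T.tau (tn a) 0 := by
    rw [map_mul, ← hs, ← aeval_algHom_apply, map_zero]
    change aeval (xn E) F * _ = _
    linear_combination (T.tau (tn a) E.y ^ k) * hr
  rw [tf_a E F hF s (inj_a E h1), map_zero] at hs
  exact ((E.away_a.unit.pow k).mul_right_eq_zero).1 hs

theorem crv_n : Crv (T.dd n) p q (xn E) (yn E) :=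
  (crv_a E).map _ fun r => (T.tau_dd _ r).symm

theorem unit_y : IsUnit (yn E) := E.away_a.unit

theorem unit_x : IsUnit (xn E) :=
  isUnit_of_mul_isUnit_left ((crv_n E).eqn ▸ (unit_y E).pow 2)

theorem ux : un E * xn E = algebraMap ℂ _ q := E.tau_u

theorem vx : vn E * xn E ^ 2 = - (algebraMap ℂ _ q * yn E) := by
  rw [← Algebra.smul_def]
  exact E.tau_t

theorem unit_u (hq : q ≠ 0) : IsUnit (un E) := isUnit_of_mul_isUnit_left (ux E ▸ unit_c hq)

theorem unit_v (hq : q ≠ 0) : IsUnit (vn E) :=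
  isUnit_of_mul_isUnit_left (vx E ▸ ((unit_c hq).mul (unit_y E)).neg)

theorem yu : yn E * un E ^ 2 = - (algebraMap ℂ _ q * vn E) := by
  refine ((unit_x E).pow 2).mul_left_cancel ?_
  linear_combination (yn E * (un E * xn E + algebraMap ℂ _ q)) * ux E + algebraMap ℂ _ q * vx E

theorem yux : yn E * un E = - (vn E * xn E) := by
  refine (unit_x E).mul_left_cancel ?_
  linear_combination yn E * ux E + vx E

theorem crv_u (hq : q ≠ 0) : Crv (T.dd n) p q (un E) (vn E) := by
  have h1 := ux E
  have h2 := yux E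
  have h3 := (crv_n E).eqn
  have e : vn E ^ 2 = un E * (un E ^ 2 + algebraMap ℂ _ p * un E + algebraMap ℂ _ q) := by
    refine ((unit_x E).pow 2).mul_left_cancel ?_
    linear_combination (yn E * un E - vn E * xn E) * (-h2) + un E ^ 2 * h3 +
      (un E * xn E ^ 2 - xn E * un E ^ 2) * h1
  have d1 : T.dd n (un E) = vn E := by
    have := congrArg (T.dd n) h1
    simp only [Derivation.leibniz, smul_eq_mul, Derivation.map_algebraMap, (crv_n E).dx] at this
    refine (unit_x E).mul_left_cancel ?_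
    linear_combination this - h2
  refine ⟨e, d1, ?_⟩
  have := congrArg (T.dd n) e
  simp only [Derivation.leibniz, smul_eq_mul, Derivation.map_algebraMap, map_add, pow_two, d1]
    at this
  refine (unit_v E hq).mul_left_cancel ?_
  linear_combination this

theorem w_x : T.w n (xn E) = xn E := by rw [xn, ← T.tau_w, E.w_x]

theorem w_y : T.w n (yn E) = - yn E := by rw [yn, ← T.tau_w, E.w_y, map_neg]

theorem w_u : T.w n (un E) = un E := by
  have := congrArg (T.w n) (ux E)
  rw [map_mul, w_x, AlgHom.commutes] at this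
  exact (unit_x E).mul_right_cancel (this.trans (ux E).symm)

theorem hb_eq (hq : q ≠ 0) : 2 * algebraMap ℂ _ q * E.hb = - (yn E * un E) := by
  have : (2 : T.R n) * algebraMap ℂ _ q = algebraMap ℂ _ (2 * q) := by rw [map_mul, map_ofNat]
  rw [this, ← Algebra.smul_def, EllD.hb, smul_smul, mul_neg, mul_inv_cancel₀ (by simpa using hq),
    neg_smul, one_smul]
  rfl

theorem hb_x (hq : q ≠ 0) : 2 * xn E * E.hb = - yn E := by
  refine (unit_c hq).mul_left_cancel ?_
  linear_combination xn E * hb_eq E hq - yn E * ux E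

theorem hb_u (hq : q ≠ 0) : 2 * un E * E.hb = vn E := by
  refine (unit_c hq).mul_left_cancel ?_
  linear_combination un E * hb_eq E hq - yu E

theorem w_h (i : Ix) : T.w n (E.h i) = - E.h i := by
  cases i
  · simp [EllD.h]
  · change T.w n (_ • (yn E * un E)) = - (_ • (yn E * un E))
    rw [map_smul, map_mul, w_y, w_u, neg_mul, smul_neg]
  · simp [EllD.h]

theorem d_hb (hq : q ≠ 0) : 4 * T.dd n E.hb = un E - xn E := by
  have h := congrArg (T.dd n) (hb_x E hq)
  simp only [Derivation.leibniz, smul_eq_mul, der_two, map_neg, (crv_n E).dx] at h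
  refine ((unit_x E).pow 2).mul_left_cancel ?_
  linear_combination (2 * xn E) * h - (2 * yn E) * hb_x E hq + 2 * (crv_n E).eqn -
    xn E * (crv_n E).dy - xn E * ux E

theorem y_inv : yn E * (yn E * un E ^ 3 * T.tau (tn b) E.gi) = algebraMap ℂ _ q ^ 2 := by
  have h := congrArg (T.tau (tn b)) E.gi_mul
  simp only [map_mul, map_add, map_pow, map_one, Algebra.smul_def, AlgHom.commutes] at h
  change _ * (un E ^ 2 + _ * un E + _) = 1 at h
  have h1 := ux E
  linear_combination (un E ^ 3 * T.tau (tn b) E.gi) * (crv_n E).eqn + algebraMap ℂ _ q ^ 2 * h +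
    T.tau (tn b) E.gi * (un E ^ 2 * xn E ^ 2 + un E * xn E * algebraMap ℂ _ q +
      algebraMap ℂ _ q ^ 2 + algebraMap ℂ _ p * un E * (un E * xn E + algebraMap ℂ _ q) +
      algebraMap ℂ _ q * un E ^ 2) * h1

/-- A subalgebra which contains `x`, `y`, `1/y` is everything. -/
theorem gen_n (C : Subalgebra ℂ (T.R n)) (hx : xn E ∈ C) (hy : yn E ∈ C)
    (hi : ∃ z ∈ C, yn E * z = 1) (r : T.R n) : r ∈ C := by
  obtain ⟨z, hz, hyz⟩ := hi
  obtain ⟨k, s, hs⟩ := E.away_a.surj r
  have h1 : T.tau (tn a) s ∈ C := by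
    have : Algebra.adjoin ℂ {E.x, E.y} ≤ C.comap (T.tau (tn a)) :=
      Algebra.adjoin_le (Set.pair_subset hx hy)
    exact this (E.gen_a ▸ Algebra.mem_top)
  have h2 : r = z ^ k * T.tau (tn a) s := by
    rw [← hs, ← mul_assoc, ← mul_pow, mul_comm z]
    change r = (yn E * z) ^ k * r
    rw [hyz, one_pow, one_mul]
  exact h2 ▸ C.mul_mem (C.pow_mem hz k) h1

include E in
/-- The two charts generate the functions on the intersection. -/
theorem gen_ab (hq : q ≠ 0) (C : Subalgebra ℂ (T.R n)) (ha : ∀ r, T.tau (tn a) r ∈ C)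
    (hb : ∀ r, T.tau (tn b) r ∈ C) (r : T.R n) : r ∈ C := by
  refine gen_n E C (ha _) (ha _) ⟨(q ^ 2)⁻¹ • (yn E * un E ^ 3 * T.tau (tn b) E.gi),
    C.smul_mem (C.mul_mem (C.mul_mem (ha _) (C.pow_mem (hb _) 3)) (hb _)) _, ?_⟩ r
  rw [mul_smul_comm, y_inv, ← map_pow, Algebra.smul_def, ← map_mul,
    inv_mul_cancel₀ (pow_ne_zero 2 hq), map_one]

end

end Vale.Agent.P286ET4
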