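import Vale.Agent.P286ET4.Alg

/-!
# The square of the elliptic curve: the restriction to the diagonal
-/

namespace Vale.Agent.P286ET4

open CategoryTheory TensorProduct Vale.Agent.P286ET Vale.Agent.P286ET.Ix

noncomputable section

variable {T T' : TDat Ix} {p q : ℂ}

/-- The data on the square. -/
structure Dat (E : EllD T p q 1) (E' : EllD T' p q 1) : Type 1 where
  κ : Kap T T' 1
  kx : κ.k a E.x = E'.x
  ky : κ.k a E.y = E'.y
  ku : κ.k b E.u = E'.u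
  kt : κ.k b E.t = E'.t
  S : Sq T T'
  hu : IsUnit (S.i2 (xn E') - S.i1 (xn E))
  G : S.Q
  hG : 2 * (S.i2 (xn E') - S.i1 (xn E)) * G = S.i1 (yn E) + S.i2 (yn E')
  hq : q ≠ 0

namespace Dat

variable {E : EllD T p q 1} {E' : EllD T' p q 1} (c : Dat E E')

/-- The second embedding, transported to the first model. -/
def j2 : T.R n →ₐ[ℂ] c.S.Q := c.S.i2.comp (c.κ.k n : T.R n →ₐ[ℂ] T'.R n)

theorem j2_def (r : T.R n) : c.j2 r = c.S.i2 (c.κ.k n r) := rfl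

theorem d2_j2 (r : T.R n) : c.S.d2 (c.j2 r) = c.j2 (T.dd n r) := by
  rw [j2_def, j2_def, c.S.d22, c.κ.k_dd, one_smul]

theorem d1_j2 (r : T.R n) : c.S.d1 (c.j2 r) = 0 := c.S.d12 _

theorem knx : c.κ.k n (xn E) = xn E' := by rw [xn, c.κ.k_tau, c.kx, xn]
theorem kny : c.κ.k n (yn E) = yn E' := by rw [yn, c.κ.k_tau, c.ky, yn]
theorem knu : c.κ.k n (un E) = un E' := by rw [un, c.κ.k_tau, c.ku, un]

theorem kh (i : Ix) : c.κ.k n (E.h i) = E'.h i := by
  cases i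
  · exact map_zero _
  · change c.κ.k n (_ • (yn E * un E)) = _ • (yn E' * un E')
    rw [map_smul, map_mul, kny, knu]
  · exact map_zero _

theorem hu' : IsUnit (c.j2 (xn E) - c.S.i1 (xn E)) := by
  rw [j2_def, knx]
  exact c.hu

theorem hG' : 2 * (c.j2 (xn E) - c.S.i1 (xn E)) * c.G = c.S.i1 (yn E) + c.j2 (yn E) := by
  rw [j2_def, j2_def, knx, kny]
  exact c.hG

/-- The regular functions on the product of two charts. -/
def O (i j : Ix) : Subalgebra ℂ c.S.Q := (c.S.emb i j).range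

/-- The function with a simple pole along the diagonal. -/
def g (i j : Ix) : c.S.Q := c.S.Gf c.κ c.G E.h i j

theorem g_def (i j : Ix) : c.g i j = c.G - c.S.i1 (E.h i) + c.j2 (E.h j) := rfl

theorem emb_tmul (i j : Ix) (u : T.R i) (v : T'.R j) :
    c.S.emb i j (u ⊗ₜ v) = c.S.i1 (T.tau (tn i) u) * c.S.i2 (T'.tau (tn j) v) := rfl

theorem mul_tmul (i j : Ix) (u : T.R i) (v : T'.R j) :
    c.κ.mul i j (u ⊗ₜ v) = T.tau (tn i) u * (c.κ.k n).symm (T'.tau (tn j) v) := rfl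

theorem ks (j : Ix) (v : T.R j) :
    (c.κ.k n).symm (T'.tau (tn j) (c.κ.k j v)) = T.tau (tn j) v := by
  rw [← c.κ.k_tau, AlgEquiv.symm_apply_apply]

theorem j2_tau (j : Ix) (v : T.R j) :
    c.j2 (T.tau (tn j) v) = c.S.i2 (T'.tau (tn j) (c.κ.k j v)) := by
  rw [j2_def, c.κ.k_tau]

theorem mem1 (i j : Ix) (u : T.R i) : c.S.i1 (T.tau (tn i) u) ∈ c.O i j :=
  ⟨u ⊗ₜ 1, by change c.S.emb i j _ = _; simp [emb_tmul]⟩

theorem mem2 (i j : Ix) (v : T.R j) : c.j2 (T.tau (tn j) v) ∈ c.O i j :=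
  ⟨1 ⊗ₜ c.κ.k j v, by change c.S.emb i j _ = _; simp [emb_tmul, j2_tau]⟩

theorem O_le {i j : Ix} {C : Subalgebra ℂ c.S.Q} (h1 : ∀ u, c.S.i1 (T.tau (tn i) u) ∈ C)
    (h2 : ∀ v, c.j2 (T.tau (tn j) v) ∈ C) : c.O i j ≤ C := by
  rintro _ ⟨ξ, rfl⟩
  change c.S.emb i j ξ ∈ C
  induction ξ using TensorProduct.induction_on with
  | zero => simp
  | tmul u v =>
    obtain ⟨v, rfl⟩ := (c.κ.k j).surjective v
    rw [emb_tmul, ← j2_tau]
    exact mul_mem (h1 u) (h2 v)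
  | add ξ η h h' => exact map_add (c.S.emb i j) ξ η ▸ add_mem h h'

theorem tau_tau {i k : Ix} (h : i ≤ k) (u : T.R i) :
    T.tau (tn k) (T.tau (homOfLE h) u) = T.tau (tn i) u := by
  rw [← T.tau_comp]
  rfl

theorem O_mono {i j i' j' : Ix} (h : i ≤ i') (h' : j ≤ j') : c.O i j ≤ c.O i' j' :=
  c.O_le (fun u => tau_tau h u ▸ c.mem1 _ _ _) (fun v => tau_tau h' v ▸ c.mem2 _ _ _)

theorem g_sub {i j i' j' : Ix} (h : i ≤ i') (h' : j ≤ j') : c.g i' j' - c.g i j ∈ c.O i' j' := by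
  have h1 : c.S.i1 (E.h i' - E.h i) ∈ c.O i' j' := by
    rcases h with rfl | rfl
    · simp
    · exact tau_n T (E.h n - E.h i) ▸ c.mem1 n j' _
  have h2 : c.j2 (E.h j' - E.h j) ∈ c.O i' j' := by
    rcases h' with rfl | rfl
    · simp
    · exact tau_n T (E.h n - E.h j) ▸ c.mem2 i' n _
  have := sub_mem h2 h1
  rw [map_sub, map_sub] at this
  convert this using 1
  rw [g_def, g_def]
  ring

/-- The function `z` is regular along the diagonal, with the restriction `r`. -/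
def Rs (z : c.S.Q) (r : T.R n) : Prop := ∃ ξ, c.S.emb n n ξ = z ∧ c.κ.mul n n ξ = r

variable {c}

theorem Rs.add {z z' : c.S.Q} {r r' : T.R n} (h : c.Rs z r) (h' : c.Rs z' r') :
    c.Rs (z + z') (r + r') := by
  obtain ⟨ξ, rfl, rfl⟩ := h
  obtain ⟨η, rfl, rfl⟩ := h'
  exact ⟨ξ + η, map_add _ _ _, map_add _ _ _⟩

theorem Rs.sub {z z' : c.S.Q} {r r' : T.R n} (h : c.Rs z r) (h' : c.Rs z' r') :
    c.Rs (z - z') (r - r') := by
  obtain ⟨ξ, rfl, rfl⟩ := h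
  obtain ⟨η, rfl, rfl⟩ := h'
  exact ⟨ξ - η, map_sub _ _ _, map_sub _ _ _⟩

theorem Rs.mul {z z' : c.S.Q} {r r' : T.R n} (h : c.Rs z r) (h' : c.Rs z' r') :
    c.Rs (z * z') (r * r') := by
  obtain ⟨ξ, rfl, rfl⟩ := h
  obtain ⟨η, rfl, rfl⟩ := h'
  exact ⟨ξ * η, map_mul _ _ _, map_mul _ _ _⟩

theorem Rs.uniq {z z' : c.S.Q} {r r' : T.R n} (h : c.Rs z r) (h' : c.Rs z' r') (e : z = z') :
    r = r' := by
  obtain ⟨ξ, rfl, rfl⟩ := h
  obtain ⟨η, rfl, rfl⟩ := h'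
  have : c.S.emb n n = Algebra.TensorProduct.productMap c.S.i1 c.S.i2 := by
    unfold Sq.emb
    congr 1 <;> ext r <;> simp [tau_n]
  rw [this] at e
  rw [c.S.inj e]

variable (c)

theorem rs1 (r : T.R n) : c.Rs (c.S.i1 r) r :=
  ⟨r ⊗ₜ 1, by simp [emb_tmul, tau_n], by simp [mul_tmul, tau_n]⟩

theorem rs2 (r : T.R n) : c.Rs (c.j2 r) r :=
  ⟨1 ⊗ₜ c.κ.k n r, by simp [emb_tmul, tau_n, j2_def], by simp [mul_tmul, tau_n]⟩

theorem rs_emb (i j : Ix) (ξ : T.R i ⊗[ℂ] T'.R j) : c.Rs (c.S.emb i j ξ) (c.κ.mul i j ξ) := by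
  induction ξ using TensorProduct.induction_on with
  | zero => simpa using c.rs1 0
  | tmul u v =>
    obtain ⟨v, rfl⟩ := (c.κ.k j).surjective v
    rw [emb_tmul, mul_tmul, ← j2_tau, ks]
    exact (c.rs1 _).mul (c.rs2 _)
  | add ξ η h h' => simpa only [map_add] using h.add h'

theorem d2_emb (i j : Ix) (ξ : T.R i ⊗[ℂ] T'.R j) :
    c.S.d2 (c.S.emb i j ξ) = c.S.emb i j (LinearMap.lTensor _ (T'.dd j).toLinearMap ξ) := by
  induction ξ using TensorProduct.induction_on with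
  | zero => simp
  | tmul u v =>
    rw [LinearMap.lTensor_tmul, emb_tmul, emb_tmul, Derivation.leibniz, c.S.d21, c.S.d22,
      smul_zero, add_zero, smul_eq_mul, ← T'.tau_dd]
    rfl
  | add ξ η h h' => simp only [map_add, h, h']

variable {c}

theorem Rs.d2 {z : c.S.Q} {r : T.R n} (h : c.Rs z r) : ∃ r', c.Rs (c.S.d2 z) r' := by
  obtain ⟨ξ, rfl, rfl⟩ := h
  exact ⟨_, c.d2_emb n n ξ ▸ c.rs_emb n n _⟩

/-- The residue along the diagonal. -/
theorem res {i j : Ix} {z z' : c.S.Q} {r r' : T.R n} (h0 : c.Rs z 0) (h1 : c.Rs z' r)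
    (h2 : c.Rs (c.S.d2 z) r') (e : z' = z * c.g i j) : r = r' := by
  have h3 := h1.add (h0.mul ((c.rs1 (E.h i)).sub (c.rs2 (E.h j))))
  have e3 : z' + z * (c.S.i1 (E.h i) - c.j2 (E.h j)) = z * c.G := by
    rw [e, g_def]
    ring
  rw [e3, zero_mul, add_zero] at h3
  obtain ⟨s, hs⟩ := h3.d2
  have e4 : 2 * (c.j2 (xn E) - c.S.i1 (xn E)) * (z * c.G) = z * (c.S.i1 (yn E) + c.j2 (yn E)) := by
    linear_combination z * c.hG'
  generalize z * c.G = z0 at h3 hs e4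
  have e5 := congrArg c.S.d2 e4
  simp only [Derivation.leibniz, smul_eq_mul, der_two, map_add, map_sub, c.S.d21, d2_j2,
    (crv_n E).dx] at e5
  have hx := (c.rs2 (xn E)).sub (c.rs1 (xn E))
  have hy := c.rs2 (yn E)
  have k := (((hx.add hx).mul hs).add (h3.mul (hy.add hy))).uniq
    ((h0.mul (c.rs2 (T.dd n (yn E)))).add (((c.rs1 (yn E)).add hy).mul h2)) (by
      linear_combination e5)
  refine (unit_two.mul (unit_y E)).mul_left_cancel ?_
  linear_combination k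

variable (c)

/-! ### The function in the coordinates of the charts -/

theorem crv1 {x y : T.R n} (h : Crv (T.dd n) p q x y) : Crv c.S.d1 p q (c.S.i1 x) (c.S.i1 y) :=
  h.map _ c.S.d11

theorem crv2 {x y : T.R n} (h : Crv (T.dd n) p q x y) : Crv c.S.d2 p q (c.j2 x) (c.j2 y) :=
  h.map _ c.d2_j2

/-- The relations between the coordinates. -/
structure Rel {Q : Type} [CommRing Q] [Algebra ℂ Q] (q : ℂ) (x y u t h : Q) : Prop where
  ux : u * x = algebraMap ℂ Q q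
  yu : y * u = - (t * x)
  hx : 2 * x * h = - y
  hu : 2 * u * h = t
  unx : IsUnit x
  unu : IsUnit u

theorem rel {Q : Type} [CommRing Q] [Algebra ℂ Q] (hq : q ≠ 0) (f : T.R n →ₐ[ℂ] Q) :
    Rel q (f (xn E)) (f (yn E)) (f (un E)) (f (vn E)) (f E.hb) where
  ux := by rw [← map_mul, ux, AlgHom.commutes]
  yu := by rw [← map_mul, yux, map_neg, map_mul]
  hx := by simpa only [map_mul, map_ofNat, map_neg] using congrArg f (hb_x E hq)
  hu := by simpa only [map_mul, map_ofNat, map_neg] using congrArg f (hb_u E hq)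
  unx := (unit_x E).map f
  unu := (unit_u E hq).map f

theorem g_aa : c.g a a = c.G := by simp [g_def, EllD.h]

theorem g_ab : c.g a b = c.G + c.j2 E.hb := by simp [g_def, EllD.h]

theorem g_ba : c.g b a = c.G - c.S.i1 E.hb := by simp [g_def, EllD.h]

theorem g_bb : c.g b b = c.G - c.S.i1 E.hb + c.j2 E.hb := rfl

theorem u_bb : IsUnit (c.j2 (un E) - c.S.i1 (un E)) := by
  have r1 := rel (E := E) c.hq c.S.i1
  have r2 := rel (E := E) c.hq c.j2
  refine isUnit_of_mul_isUnit_left (y := c.S.i1 (xn E) * c.j2 (xn E)) ?_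
  convert ((unit_c c.hq).mul c.hu').neg using 1
  linear_combination c.S.i1 (xn E) * r2.ux - c.j2 (xn E) * r1.ux

theorem hG_bb : 2 * (c.j2 (un E) - c.S.i1 (un E)) * c.g b b = c.S.i1 (vn E) + c.j2 (vn E) := by
  have r1 := rel (E := E) c.hq c.S.i1
  have r2 := rel (E := E) c.hq c.j2
  refine (r1.unx.mul r2.unx).mul_left_cancel ?_
  rw [g_bb, ← r1.hu, ← r2.hu]
  linear_combination (2 * c.S.i1 (xn E) * (c.G - c.S.i1 E.hb)) * r2.ux -
    (2 * c.j2 (xn E) * (c.G + c.j2 E.hb)) * r1.ux - algebraMap ℂ _ q * c.hG' -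
    algebraMap ℂ _ q * r1.hx - algebraMap ℂ _ q * r2.hx

theorem u_ab : IsUnit (c.S.i1 (xn E) * c.j2 (un E) - algebraMap ℂ _ q) := by
  have r2 := rel (E := E) c.hq c.j2
  convert (r2.unu.mul c.hu').neg using 1
  linear_combination r2.ux

theorem hG_ab : 2 * (c.S.i1 (xn E) * c.j2 (un E) - algebraMap ℂ _ q) * c.g a b =
    c.S.i1 (xn E) * c.j2 (vn E) - c.S.i1 (yn E) * c.j2 (un E) := by
  have r2 := rel (E := E) c.hq c.j2
  rw [g_ab]
  linear_combination (2 * (c.G + c.j2 E.hb)) * r2.ux - c.j2 (un E) * c.hG' +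
    (c.S.i1 (xn E) - c.j2 (xn E)) * r2.hu - r2.yu

theorem u_ba : IsUnit (c.S.i1 (un E) * c.j2 (xn E) - algebraMap ℂ _ q) := by
  have r1 := rel (E := E) c.hq c.S.i1
  convert r1.unu.mul c.hu' using 1
  linear_combination r1.ux

theorem hG_ba : 2 * (c.S.i1 (un E) * c.j2 (xn E) - algebraMap ℂ _ q) * c.g b a =
    c.S.i1 (un E) * c.j2 (yn E) - c.S.i1 (vn E) * c.j2 (xn E) := by
  have r1 := rel (E := E) c.hq c.S.i1
  rw [g_ba]
  linear_combination (2 * (c.G - c.S.i1 E.hb)) * r1.ux + c.S.i1 (un E) * c.hG' -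
    (c.j2 (xn E) - c.S.i1 (xn E)) * r1.hu + r1.yu

end Dat

end

end Vale.Agent.P286ET4
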