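import Vale.Agent.P286ET.Spec

/-!
# The ring of functions on the square with poles along `x₁ = x₂`
-/

namespace Vale.Agent.P286ET4

open CategoryTheory TensorProduct Vale.Agent.P286ET Vale.Agent.P286ET.Ix Polynomial

noncomputable section

/-- No nonzero polynomial in `x` is a zero divisor. -/
def TF {B : Type} [CommRing B] [Algebra ℂ B] (x : B) : Prop :=
  ∀ F : ℂ[X], F ≠ 0 → ∀ r : B, aeval x F * r = 0 → r = 0

section NZD

variable {A B : Type} [CommRing A] [Algebra ℂ A] [CommRing B] [Algebra ℂ B]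

/-- The contraction of a tensor with a linear form. -/
def ctr (ξ : A ⊗[ℂ] B) : Module.Dual ℂ A →ₗ[ℂ] B where
  toFun l := TensorProduct.lid ℂ B (LinearMap.rTensor B l ξ)
  map_add' l l' := by rw [LinearMap.rTensor_add, LinearMap.add_apply, map_add]
  map_smul' c l := by rw [LinearMap.rTensor_smul, LinearMap.smul_apply, map_smul, RingHom.id_apply]

theorem ctr_tmul (u : A) (v : B) (l : Module.Dual ℂ A) : ctr (u ⊗ₜ[ℂ] v) l = l u • v := by
  simp [ctr]

theorem ctr_add (ξ η : A ⊗[ℂ] B) (l : Module.Dual ℂ A) : ctr (ξ + η) l = ctr ξ l + ctr η l := by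
  simp [ctr]

theorem ctr_zero (l : Module.Dual ℂ A) : ctr (0 : A ⊗[ℂ] B) l = 0 := by
  simp [ctr]

theorem ctr_fin (ξ : A ⊗[ℂ] B) :
    ∃ W : Submodule ℂ B, Module.Finite ℂ W ∧ ∀ l, ctr ξ l ∈ W := by
  induction ξ using TensorProduct.induction_on with
  | zero => exact ⟨⊥, inferInstance, fun l => by simp [ctr_zero]⟩
  | tmul u v => exact ⟨ℂ ∙ v, inferInstance, fun l => by
      rw [ctr_tmul]
      exact Submodule.smul_mem _ _ (Submodule.mem_span_singleton_self v)⟩
  | add ξ η h h' =>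
    obtain ⟨W, _, hW⟩ := h
    obtain ⟨W', _, hW'⟩ := h'
    exact ⟨W ⊔ W', inferInstance, fun l => by
      rw [ctr_add]
      exact Submodule.add_mem_sup (hW l) (hW' l)⟩

theorem ctr_l (x : A) (ξ : A ⊗[ℂ] B) (l : Module.Dual ℂ A) :
    ctr ((x ⊗ₜ[ℂ] (1 : B)) * ξ) l = ctr ξ (l ∘ₗ LinearMap.mulLeft ℂ x) := by
  induction ξ using TensorProduct.induction_on with
  | zero => simp [ctr_zero]
  | tmul u v => simp [ctr_tmul]
  | add ξ η h h' => rw [mul_add, ctr_add, ctr_add, h, h']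

theorem ctr_r (y : B) (ξ : A ⊗[ℂ] B) (l : Module.Dual ℂ A) :
    ctr (((1 : A) ⊗ₜ[ℂ] y) * ξ) l = y * ctr ξ l := by
  induction ξ using TensorProduct.induction_on with
  | zero => simp [ctr_zero]
  | tmul u v => simp [ctr_tmul]
  | add ξ η h h' => rw [mul_add, ctr_add, ctr_add, h, h', mul_add]

theorem ctr_eq_zero (ξ : A ⊗[ℂ] B) (h : ∀ l, ctr ξ l = 0) : ξ = 0 := by
  classical
  let e := Module.Basis.ofVectorSpace ℂ A
  have key : ∀ (η : A ⊗[ℂ] B) i,
      TensorProduct.equivFinsuppOfBasisLeft e η i = ctr η (e.coord i) := by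
    intro η i
    induction η using TensorProduct.induction_on with
    | zero => simp [ctr_zero]
    | tmul u v => simp [ctr_tmul]
    | add ξ η h h' => rw [map_add, Finsupp.add_apply, ctr_add, h, h']
  apply (TensorProduct.equivFinsuppOfBasisLeft e).injective
  ext i
  rw [key, h, map_zero, Finsupp.zero_apply]

theorem nzd (x : A) (y : B) (hy : TF y) (ξ : A ⊗[ℂ] B)
    (h : ((1 : A) ⊗ₜ[ℂ] y - x ⊗ₜ[ℂ] (1 : B)) * ξ = 0) : ξ = 0 := by
  obtain ⟨W, _, hW⟩ := ctr_fin ξ
  have hle : LinearMap.range (ctr ξ) ≤ W := by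
    rintro _ ⟨l, rfl⟩
    exact hW l
  have : Module.Finite ℂ (LinearMap.range (ctr ξ)) := Submodule.finiteDimensional_of_le hle
  have hst : ∀ v ∈ LinearMap.range (ctr ξ),
      LinearMap.mulLeft ℂ y v ∈ LinearMap.range (ctr ξ) := by
    rintro _ ⟨l, rfl⟩
    refine ⟨l ∘ₗ LinearMap.mulLeft ℂ x, ?_⟩
    rw [← ctr_l, LinearMap.mulLeft_apply, ← ctr_r, sub_eq_zero.1 ((sub_mul _ _ _).symm.trans h)]
  obtain ⟨F, hF, hF0⟩ := LinearMap.exists_monic_and_aeval_eq_zero ℂ
    ((LinearMap.mulLeft ℂ y).restrict hst)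
  have hev : ∀ (F : ℂ[X]) (v : LinearMap.range (ctr ξ)),
      ((aeval ((LinearMap.mulLeft ℂ y).restrict hst) F v : LinearMap.range (ctr ξ)) : B) =
        aeval y F * v := by
    intro F
    induction F using Polynomial.induction_on with
    | C c => intro v; simp [Algebra.smul_def]
    | add F F' h h' => intro v; simp [h, h', add_mul]
    | monomial k c h =>
      intro v
      rw [pow_succ, ← mul_assoc, map_mul, Module.End.mul_apply, h, map_mul (aeval y) _ X, aeval_X,
        aeval_X, LinearMap.coe_restrict_apply, LinearMap.mulLeft_apply, mul_assoc]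
  refine ctr_eq_zero ξ fun l => hy F hF.ne_zero _ ?_
  have := hev F ⟨ctr ξ l, l, rfl⟩
  rw [hF0] at this
  exact this.symm

end NZD

section DER

variable {P Q : Type} [CommRing P] [Algebra ℂ P] [CommRing Q] [Algebra ℂ Q] [Algebra P Q]
  [IsScalarTower ℂ P Q] (δ : P) [IsLocalization.Away δ Q]

/-- The algebra map to the dual numbers defined by a derivation. -/
def dn {A : Type} [CommRing A] [Algebra ℂ A] (f : A →ₐ[ℂ] Q) (d : Derivation ℂ A A) :
    A →ₐ[ℂ] TrivSqZeroExt Q Q where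
  toFun r := TrivSqZeroExt.inl (f r) + TrivSqZeroExt.inr (f (d r))
  map_one' := by ext <;> simp
  map_mul' r s := by ext <;> simp [mul_comm]
  map_zero' := by ext <;> simp
  map_add' r s := by ext <;> simp
  commutes' c := by ext <;> simp [TrivSqZeroExt.algebraMap_eq_inl']

theorem dn_fst {A : Type} [CommRing A] [Algebra ℂ A] (f : A →ₐ[ℂ] Q) (d : Derivation ℂ A A)
    (r : A) : (dn f d r).fst = f r := by
  change (TrivSqZeroExt.inl (f r) + TrivSqZeroExt.inr (f (d r)) : TrivSqZeroExt Q Q).fst = _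
  simp

theorem dn_snd {A : Type} [CommRing A] [Algebra ℂ A] (f : A →ₐ[ℂ] Q) (d : Derivation ℂ A A)
    (r : A) : (dn f d r).snd = f (d r) := by
  change (TrivSqZeroExt.inl (f r) + TrivSqZeroExt.inr (f (d r)) : TrivSqZeroExt Q Q).snd = _
  simp

include δ in
theorem exists_der (ψ : P →ₐ[ℂ] TrivSqZeroExt Q Q) (hψ : ∀ z, (ψ z).fst = algebraMap P Q z) :
    ∃ D : Derivation ℂ Q Q, ∀ z, D (algebraMap P Q z) = (ψ z).snd := by
  have hu : ∀ y : Submonoid.powers δ, IsUnit (ψ y) := fun y => by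
    rw [TrivSqZeroExt.isUnit_iff_isUnit_fst, hψ]
    exact IsLocalization.map_units Q y
  let Φ : Q →ₐ[ℂ] TrivSqZeroExt Q Q := IsLocalization.liftAlgHom hu
  have hΦ : ∀ z, Φ (algebraMap P Q z) = ψ z := fun z => IsLocalization.lift_eq hu z
  have h1 : ∀ q, (Φ q).fst = q := by
    have : ((TrivSqZeroExt.fstHom ℂ Q Q).comp Φ).toRingHom = RingHom.id Q :=
      IsLocalization.ringHom_ext (Submonoid.powers δ) (RingHom.ext fun z => by
        simpa [hΦ] using hψ z)
    exact fun q => RingHom.congr_fun this q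
  refine ⟨Derivation.mk' ((TrivSqZeroExt.sndHom Q Q).restrictScalars ℂ ∘ₗ Φ.toLinearMap)
    fun u v => ?_, fun z => ?_⟩
  · simp [h1, mul_comm]
  · simp [hΦ]

omit [Algebra ℂ P] [IsScalarTower ℂ P Q] in
include δ in
theorem anti (w : Q →ₐ[ℂ] Q) (D : Derivation ℂ Q Q)
    (h : ∀ z, w (D (algebraMap P Q z)) = - D (w (algebraMap P Q z))) (q : Q) :
    w (D q) = - D (w q) := by
  obtain ⟨⟨z, s⟩, hs⟩ := IsLocalization.surj (Submonoid.powers δ) q
  have hu : IsUnit (w (algebraMap P Q s)) := (IsLocalization.map_units Q s).map w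
  have h1 := h z
  have h2 := h s
  simp only at hs
  rw [← hs] at h1
  simp only [map_mul, Derivation.leibniz, smul_eq_mul, map_add] at h1
  refine hu.mul_left_cancel ?_
  linear_combination h1 - w q * h2

end DER

theorem exists_sq (T T' : TDat Ix) (x : T.R n) (y : T'.R n) (hy : TF y) (wx : T.w n x = x)
    (wy : T'.w n y = y) : ∃ S : Sq T T', IsUnit (S.i2 y - S.i1 x) := by
  let δ : (T.R n ⊗[ℂ] T'.R n) := (1 : T.R n) ⊗ₜ[ℂ] y - x ⊗ₜ[ℂ] (1 : T'.R n)
  let Q := Localization.Away δ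
  let ι : (T.R n ⊗[ℂ] T'.R n) →ₐ[ℂ] Q := IsScalarTower.toAlgHom ℂ (T.R n ⊗[ℂ] T'.R n) Q
  let i1 : T.R n →ₐ[ℂ] Q := ι.comp Algebra.TensorProduct.includeLeft
  let i2 : T'.R n →ₐ[ℂ] Q := ι.comp Algebra.TensorProduct.includeRight
  have hι : ∀ u v, algebraMap (T.R n ⊗[ℂ] T'.R n) Q (u ⊗ₜ[ℂ] v) = i1 u * i2 v := fun u v => by
    change _ = ι _ * ι _
    rw [← map_mul]
    simp [ι]
  have e1 : ∀ u, i1 u = algebraMap (T.R n ⊗[ℂ] T'.R n) Q (u ⊗ₜ[ℂ] 1) := fun u => rfl
  have e2 : ∀ v, i2 v = algebraMap (T.R n ⊗[ℂ] T'.R n) Q (1 ⊗ₜ[ℂ] v) := fun u => rfl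
  have hδ : algebraMap (T.R n ⊗[ℂ] T'.R n) Q δ = i2 y - i1 x := map_sub _ _ _
  have hu : IsUnit (i2 y - i1 x) := hδ ▸ IsLocalization.Away.algebraMap_isUnit δ
  have hpm : Algebra.TensorProduct.productMap i1 i2 = ι := by
    refine AlgHom.ext fun z => ?_
    induction z using TensorProduct.induction_on with
    | zero => simp
    | tmul u v => exact (hι u v).symm
    | add z z' h h' => rw [map_add, map_add, h, h']
  have hinj : Function.Injective (algebraMap (T.R n ⊗[ℂ] T'.R n) Q) :=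
    IsLocalization.injective Q (M := Submonoid.powers δ) (Submonoid.powers_le.2
      (mem_nonZeroDivisors_iff_left.2 fun ξ h => nzd x y hy ξ h))
  have hder : ∀ (d : Derivation ℂ (T.R n) (T.R n)) (d' : Derivation ℂ (T'.R n) (T'.R n)),
      ∃ D : Derivation ℂ Q Q, (∀ r, D (i1 r) = i1 (d r)) ∧ ∀ r, D (i2 r) = i2 (d' r) := by
    intro d d'
    obtain ⟨D, hD⟩ := exists_der (Q := Q) δ
      (Algebra.TensorProduct.productMap (dn i1 d) (dn i2 d')) (fun z => by
        induction z using TensorProduct.induction_on with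
        | zero => simp
        | tmul u v => rw [hι]; simp [dn_fst]
        | add z z' h h' => rw [map_add, map_add, TrivSqZeroExt.fst_add, h, h'])
    exact ⟨D, fun r => by rw [e1, hD]; simp [dn_snd], fun r => by rw [e2, hD]; simp [dn_snd]⟩
  obtain ⟨d1, d11, d12⟩ := hder (T.dd n) 0
  obtain ⟨d2, d21, d22⟩ := hder 0 (T'.dd n)
  let w0 : (T.R n ⊗[ℂ] T'.R n) →ₐ[ℂ] Q := Algebra.TensorProduct.productMap (i1.comp (T.w n)) (i2.comp (T'.w n))
  have hw0 : ∀ s : Submonoid.powers δ, IsUnit (w0 s) := by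
    rintro ⟨_, k, rfl⟩
    have : w0 δ = i2 y - i1 x := by simp [w0, δ, wx, wy]
    simp only [map_pow, this]
    exact hu.pow k
  let w : Q →ₐ[ℂ] Q := IsLocalization.liftAlgHom hw0
  have hw : ∀ z, w (algebraMap (T.R n ⊗[ℂ] T'.R n) Q z) = w0 z := fun z => IsLocalization.lift_eq hw0 z
  have w1 : ∀ r, w (i1 r) = i1 (T.w n r) := fun r => by rw [e1, hw]; simp [w0]
  have w2 : ∀ r, w (i2 r) = i2 (T'.w n r) := fun r => by rw [e2, hw]; simp [w0]
  have ww : ∀ q, w (w q) = q := by
    have : (w.comp w).toRingHom = RingHom.id Q :=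
      IsLocalization.ringHom_ext (Submonoid.powers δ) (RingHom.ext fun z => by
        change w (w (algebraMap (T.R n ⊗[ℂ] T'.R n) Q z)) = algebraMap (T.R n ⊗[ℂ] T'.R n) Q z
        induction z using TensorProduct.induction_on with
        | zero => simp
        | tmul u v => rw [hι, map_mul, map_mul, w1, w1, w2, w2, T.w_w, T'.w_w]
        | add z z' h h' => rw [map_add, map_add, map_add, h, h'])
    exact fun q => RingHom.congr_fun this q
  have wd : ∀ D : Derivation ℂ Q Q, (∀ r, w (D (i1 r)) = - D (w (i1 r))) →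
      (∀ r, w (D (i2 r)) = - D (w (i2 r))) → ∀ q, w (D q) = - D (w q) := fun D h h' =>
    anti δ w D fun z => by
      induction z using TensorProduct.induction_on with
      | zero => simp
      | tmul u v =>
        simp only [hι, map_mul, Derivation.leibniz, smul_eq_mul, map_add, h, h']
        ring
      | add z z' h h' => simp only [map_add, h, h', neg_add]
  exact ⟨{ Q := Q, i1 := i1, i2 := i2, inj := hpm ▸ hinj, d1 := d1, d2 := d2, d11 := d11
           d12 := fun r => by rw [d12]; simp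
           d21 := fun r => by rw [d21]; simp
           d22 := d22, w := w, w_w := ww, w_1 := w1, w_2 := w2
           w_d1 := wd d1 (fun r => by rw [d11, w1, w1, d11, T.w_dd, map_neg])
             (fun r => by rw [w2, d12, d12]; simp)
           w_d2 := wd d2 (fun r => by rw [w1, d21, d21]; simp)
             (fun r => by rw [d22, w2, w2, d22, T'.w_dd, map_neg]) }, hu⟩

end

end Vale.Agent.P286ET4
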